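import Vale.Agent.P217.Linear.Lift
import Vale.Agent.P217.Series
import Vale.Agent.P217.Eval

/-!
P217, module M6: the logarithm of a homomorphism to the Honda law of height `h` is a
combination of the twisted logarithms of height `n` up to bounded coefficients.
-/

namespace Vale.Agent.P217.Linear

noncomputable section

open MvPowerSeries

variable {p : ℕ} [hp : Fact p.Prime] {L : Type} [Field L] (U : Untilt p L)

/-- The lift of a series with integral coefficients. -/
def tilde (ψ : PowerSeries (C p)) : PowerSeries L :=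
  PowerSeries.mk fun i => U.sharp (PowerSeries.coeff i ψ)

/-- The twisted logarithm. -/
def twist (p n : ℕ) (K : Type*) [Field K] (j : ℕ) : PowerSeries K :=
  PowerSeries.subst (PowerSeries.X ^ p ^ j : PowerSeries K) (flog p n K)

variable {U}

lemma constantCoeff_tilde {ψ : PowerSeries (C p)} (h : PowerSeries.constantCoeff ψ = 0) :
    PowerSeries.constantCoeff (tilde U ψ) = 0 := by
  rw [← PowerSeries.coeff_zero_eq_constantCoeff_apply, tilde, PowerSeries.coeff_mk,
    PowerSeries.coeff_zero_eq_constantCoeff_apply, h, U.sharp_zero]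

lemma map_inj {R S σ : Type*} [CommRing R] [CommRing S] {f : R →+* S} (hf : Function.Injective f) :
    Function.Injective (map (σ := σ) f) := fun a b h => by
  ext d
  exact hf (by simpa [coeff_map] using congrArg (coeff d) h)

/-- The degree-one part of a series with an additive logarithm. -/
lemma coeff_lift_one {m : ℕ} (hm : 1 ≤ m) {K : Type*} [Field K] {A : MvPowerSeries (Fin 2) K}
    (hA : constantCoeff A = 0)
    (hlog : PowerSeries.subst A (flog p m K) =
      PowerSeries.subst (X (0 : Fin 2) : MvPowerSeries (Fin 2) K) (flog p m K) +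
        PowerSeries.subst (X (1 : Fin 2) : MvPowerSeries (Fin 2) K) (flog p m K))
    (e : Fin 2 →₀ ℕ) (he : e.degree = 1) :
    coeff e A = coeff e (X 0 + X 1) := by
  have hd : e.degree < p ^ ((0 + 1) * m) := by
    rw [he]; exact Nat.one_lt_pow (by omega) hp.out.one_lt
  have h := congrArg (coeff e) hlog
  rw [map_add, coeff_log hm hA hd, coeff_log hm (constantCoeff_X _) hd,
    coeff_log hm (constantCoeff_X _) hd] at h
  simpa [map_add] using h

/-- The lowest part of a power depends only on the linear part. -/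
lemma coeff_pow_lowest {σ R : Type*} [CommRing R] {A B : MvPowerSeries σ R}
    (hA : constantCoeff A = 0) (hB : constantCoeff B = 0)
    (h : ∀ e : σ →₀ ℕ, e.degree = 1 → coeff e A = coeff e B) :
    ∀ k, ∀ e : σ →₀ ℕ, e.degree = k → coeff e (A ^ k) = coeff e (B ^ k) := by
  classical
  intro k
  induction k with
  | zero => intro e _; rw [pow_zero, pow_zero]
  | succ k ih =>
    intro e he
    rw [pow_succ, pow_succ, coeff_mul, coeff_mul]
    refine Finset.sum_congr rfl fun x hx => ?_
    rw [Finset.HasAntidiagonal.mem_antidiagonal] at hx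
    have hdeg : x.1.degree + x.2.degree = k + 1 := by rw [← map_add, hx, he]
    rcases lt_trichotomy x.1.degree k with h1 | h1 | h1
    · rw [coeff_pow_eq_zero hA h1, coeff_pow_eq_zero hB h1, zero_mul, zero_mul]
    · rw [ih _ h1, h _ (by omega)]
    · have h2 : x.2 = 0 := (Finsupp.degree_eq_zero_iff _).mp (by omega)
      rw [h2, coeff_zero_eq_constantCoeff_apply, coeff_zero_eq_constantCoeff_apply, hA, hB,
        mul_zero, mul_zero]

lemma coeff_add_pow_single {R : Type*} [CommRing R] (a b : ℕ) :
    coeff (Finsupp.single (0 : Fin 2) a + Finsupp.single 1 b)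
      ((X 0 + X 1 : MvPowerSeries (Fin 2) R) ^ (a + b)) = ((a + b).choose a : R) := by
  classical
  rw [add_pow, map_sum, Finset.sum_eq_single a]
  · rw [X_pow_eq, X_pow_eq, monomial_mul_monomial, ← map_natCast (MvPowerSeries.C (σ := Fin 2)
      (R := R)), mul_comm, coeff_C_mul, coeff_monomial, one_mul, if_pos (by rw [Nat.add_sub_cancel_left]),
      mul_one]
  · intro c _ hc
    rw [X_pow_eq, X_pow_eq, monomial_mul_monomial, ← map_natCast (MvPowerSeries.C (σ := Fin 2)
      (R := R)), mul_comm, coeff_C_mul, coeff_monomial, if_neg, mul_zero]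
    intro h
    exact hc (by simpa using (DFunLike.congr_fun h 0).symm)
  · intro h
    simp at h

/-- Naturals prime to p have valuation zero. -/
lemma v_natCast_eq_zero {k : ℕ} (hk : ¬ p ∣ k) : U.v (k : L) = 0 := by
  refine le_antisymm ?_ (Sharp.v_natCast_nonneg U k)
  by_contra hlt
  push Not at hlt
  obtain ⟨a, b, hab⟩ : ∃ a b : ℤ, (1 : ℤ) = p * a + k * b :=
    ⟨_, _, by rw [← Nat.gcd_eq_gcd_ab, ((hp.out.coprime_iff_not_dvd).mpr hk).gcd_eq_one,
      Nat.cast_one]⟩
  have h1 : (1 : L) = (p : L) * (a : L) + (k : L) * (b : L) := by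
    have := congrArg (fun z : ℤ => (z : L)) hab
    push_cast at this
    exact this
  have h2 : (0 : WithTop ℚ) < U.v (1 : L) := by
    rw [h1]
    refine lt_of_lt_of_le (lt_min ?_ ?_) (AddValuation.map_add _ _ _)
    · rw [AddValuation.map_mul, Sharp.v_p]
      exact lt_of_lt_of_le (by exact_mod_cast (zero_lt_one : (0 : ℚ) < 1))
        (le_add_of_nonneg_right (Sharp.v_intCast_nonneg U a))
    · rw [AddValuation.map_mul]
      exact lt_of_lt_of_le hlt (le_add_of_nonneg_right (Sharp.v_intCast_nonneg U b))
  simp at h2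

/-- An almost additive series with bounded p-power coefficients is bounded. -/
theorem vb_of_additive {n : ℕ} (hn : 1 ≤ n) {A : MvPowerSeries (Fin 2) L}
    (hA : constantCoeff A = 0) (hAi : VB U A 0)
    (hlog : PowerSeries.subst A (flog p n L) =
      PowerSeries.subst (X (0 : Fin 2) : MvPowerSeries (Fin 2) L) (flog p n L) +
        PowerSeries.subst (X (1 : Fin 2) : MvPowerSeries (Fin 2) L) (flog p n L))
    {R : PowerSeries L} {B : WithTop ℚ} (hR0 : PowerSeries.constantCoeff R = 0)
    (hpow : ∀ t, B ≤ U.v (PowerSeries.coeff (p ^ t) R))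
    (hadd : VB U (PowerSeries.subst A R -
      PowerSeries.subst (X (0 : Fin 2) : MvPowerSeries (Fin 2) L) R -
      PowerSeries.subst (X (1 : Fin 2) : MvPowerSeries (Fin 2) L) R) B) :
    ∀ k, B ≤ U.v (PowerSeries.coeff k R) := by
  classical
  intro k
  induction k using Nat.strong_induction_on with
  | _ k ih =>
    rcases eq_or_ne k 0 with rfl | hk0
    · rw [PowerSeries.coeff_zero_eq_constantCoeff_apply, hR0, AddValuation.map_zero]
      exact le_top
    obtain ⟨i, t, ht, rfl⟩ := Nat.exists_eq_pow_mul_and_not_dvd hk0 p hp.out.ne_one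
    rcases eq_or_ne t 1 with rfl | ht1
    · rw [mul_one]; exact hpow i
    have ht2 : 2 ≤ t := by
      rcases Nat.eq_zero_or_pos t with h | h
      · exact absurd (h ▸ dvd_zero p) ht
      · omega
    set a := p ^ i with ha
    set b := a * t - a with hb
    have hapos : 0 < a := pow_pos hp.out.pos i
    have hab : a + b = a * t := by
      have : a * 2 ≤ a * t := Nat.mul_le_mul_left a ht2
      omega
    have hbpos : 0 < b := by
      have : a * 2 ≤ a * t := Nat.mul_le_mul_left a ht2
      omega
    set e := Finsupp.single (0 : Fin 2) a + Finsupp.single 1 b with he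
    have hdeg : e.degree = a * t := by
      rw [he, map_add, Finsupp.degree_single, Finsupp.degree_single, hab]
    have hX : ∀ s : Fin 2,
        coeff e (PowerSeries.subst (X s : MvPowerSeries (Fin 2) L) R) = 0 := by
      intro s
      rw [PowerSeries.coeff_subst (PowerSeries.HasSubst.X s)]
      refine finsum_eq_zero_of_forall_eq_zero fun d => ?_
      rw [X_pow_eq, coeff_monomial, if_neg, smul_zero]
      intro h
      have h0 := DFunLike.congr_fun h 0
      have h1 := DFunLike.congr_fun h 1
      fin_cases s <;> simp [he] at h0 h1 <;> omega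
    have h := hadd e
    simp only [LinearMap.map_sub, hX, sub_zero] at h
    rw [
      PowerSeries.coeff_subst (PowerSeries.HasSubst.of_constantCoeff_zero hA),
      finsum_eq_sum_of_support_subset (s := Finset.range (a * t + 1)),
      Finset.sum_range_succ] at h
    swap
    · intro d hd
      rw [Function.mem_support] at hd
      simp only [Finset.coe_range, Set.mem_Iio]
      by_contra hlt
      exact hd (by rw [coeff_pow_eq_zero hA (by omega), smul_zero])
    have hlast : coeff e (A ^ (a * t)) = ((a * t).choose a : L) := by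
      rw [coeff_pow_lowest hA (by simp) (coeff_lift_one hn hA hlog) _ e hdeg, he, ← hab,
        coeff_add_pow_single]
    have hrest : B ≤ U.v (∑ d ∈ Finset.range (a * t), PowerSeries.coeff d R • coeff e (A ^ d)) :=
      AddValuation.map_le_sum _ fun d hd => by
        rw [smul_eq_mul, AddValuation.map_mul]
        exact (ih d (Finset.mem_range.mp hd)).trans (le_add_of_nonneg_right (hAi.pow d e))
    have h2 := AddValuation.map_le_sub _ h hrest
    rw [add_sub_cancel_left, smul_eq_mul, hlast, AddValuation.map_mul, v_natCast_eq_zero, add_zero]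
      at h2
    · exact h2
    · intro hdvd
      have hc := Choose.choose_pow_mul_pow_mul_modEq_choose_nat (p := p) (k := i) (a := t) (b := 1)
      rw [mul_one, Nat.choose_one_right] at hc
      exact ht ((Nat.ModEq.dvd_iff hc dvd_rfl).mp hdvd)

/-- Coefficients of the twisted logarithm. -/
lemma coeff_twist {n : ℕ} (hn : 1 ≤ n) {K : Type*} [Field K] (j : ℕ) {M d : ℕ}
    (hd : d < p ^ ((M + 1) * n)) :
    PowerSeries.coeff d (twist p n K j) =
      ∑ i ∈ Finset.range (M + 1), ((p : K) ^ i)⁻¹ * if d = p ^ (j + i * n) then 1 else 0 := by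
  classical
  rw [twist, PowerSeries.coeff]
  rw [coeff_log (σ := Unit) hn (by
    show PowerSeries.constantCoeff (PowerSeries.X ^ p ^ j : PowerSeries K) = 0
    rw [map_pow, PowerSeries.constantCoeff_X, zero_pow (pow_ne_zero _ hp.out.ne_zero)])
    (M := M) (by rwa [Finsupp.degree_single])]
  refine Finset.sum_congr rfl fun i _ => ?_
  congr 1
  rw [← pow_mul, ← pow_add]
  exact PowerSeries.coeff_X_pow d _

lemma eq_of_twist_index {n : ℕ} {j j' : Fin n} {i k : ℕ}
    (h : (j' : ℕ) + i * n = n * k + j) : j' = j ∧ i = k := by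
  have hn : 0 < n := lt_of_le_of_lt (Nat.zero_le _) j.isLt
  have hj : (j' : ℕ) = j := by
    have := congrArg (· % n) h
    simpa [Nat.add_mul_mod_self_right, Nat.mul_add_mod, Nat.mod_eq_of_lt j.isLt,
      Nat.mod_eq_of_lt j'.isLt] using this
  refine ⟨Fin.ext hj, ?_⟩
  have : i * n = k * n := by rw [mul_comm k]; omega
  exact Nat.eq_of_mul_eq_mul_right hn this

variable (U) in
/-- The logarithm of a homomorphism, up to bounded coefficients. -/
theorem exists_decomp {n h : ℕ} (hh : 1 ≤ h) (hn : 1 ≤ n) {Γ H : FormalGroup (Kb p)}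
    (hΓ : IsHondaKb p n Γ) (hH : IsHondaKb p h H) {G : FormalGroup (C p)} {δ : ℚ} (hδ : 0 < δ)
    (hδ1 : δ ≤ 1) (hint : ∀ d, 0 ≤ ord (coeff d G.toPowerSeries))
    (hclose : ∀ d, (δ : WithTop ℚ) ≤
      ord (coeff d (G.toPowerSeries - (Γ.map HahnSeries.C).toPowerSeries)))
    (hclosep : ∀ i, (δ : WithTop ℚ) ≤
      ord (PowerSeries.coeff i (mulSeries G p - PowerSeries.X ^ (p ^ n))))
    {ψ : PowerSeries (C p)} (hψi : ∀ i, 0 ≤ ord (PowerSeries.coeff i ψ))
    (hψ : IsHom G (H.map HahnSeries.C) ψ) :
    ∃ (c : Fin n → L) (B : ℚ), VB U (PowerSeries.subst (tilde U ψ) (flog p h L) -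
      ∑ j : Fin n, PowerSeries.C (c j) * twist p n L j : PowerSeries L) (B : WithTop ℚ) := by
  classical
  obtain ⟨K, hK0, hK⟩ := exists_vb_log_sub (U := U) hδ
  obtain ⟨A, Γp, hA0, hΓp0, hΓeq, hAΓ, hAlog⟩ := exists_lift_law U hn hΓ hδ1
  obtain ⟨Ah, Hp, hAh0, hHp0, hHeq, hAH, hAhlog⟩ := exists_lift_law U hh hH hδ1
  set mkQ := Ideal.Quotient.mk (Idl U δ) with hmkQ
  set s := sQ (U := U) hδ1 with hs
  set sub := (OL U).subtype with hsub
  have hX0 : ∀ i : Fin 2, PowerSeries.HasSubst (X i : MvPowerSeries (Fin 2) L) := fun i =>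
    PowerSeries.HasSubst.X i
  -- models over the two valuation rings
  set ψO : PowerSeries (OC p) := PowerSeries.mk fun i => ⟨PowerSeries.coeff i ψ, hψi i⟩ with hψO
  set ψL : PowerSeries (OL U) := PowerSeries.mk fun i => ⟨U.sharp (PowerSeries.coeff i ψ), by
    show 0 ≤ U.v _
    rw [U.v_sharp]; exact hψi i⟩ with hψL
  have hψOmap : PowerSeries.map (OC p).subtype ψO = ψ := by
    ext i; simp [hψO, PowerSeries.coeff_map]
  have hψLmap : PowerSeries.map sub ψL = tilde U ψ := by
    ext i; simp [hψL, tilde, hsub, PowerSeries.coeff_map]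
  have hψQ : PowerSeries.map mkQ ψL = PowerSeries.map s ψO := by
    ext i
    simp only [hψL, hψO, PowerSeries.coeff_map, PowerSeries.coeff_mk, hs]
    exact (sQ_eq_mk hδ1 _ _ rfl).symm
  have hψL0 : PowerSeries.constantCoeff ψL = 0 := by
    refine Subtype.ext ?_
    rw [← PowerSeries.coeff_zero_eq_constantCoeff_apply, hψL, PowerSeries.coeff_mk]
    show U.sharp _ = 0
    rw [PowerSeries.coeff_zero_eq_constantCoeff_apply, hψ.1, U.sharp_zero]
  have hψO0 : PowerSeries.constantCoeff ψO = 0 := by
    refine Subtype.ext ?_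
    rw [← PowerSeries.coeff_zero_eq_constantCoeff_apply, hψO, PowerSeries.coeff_mk]
    show PowerSeries.coeff 0 ψ = 0
    rw [PowerSeries.coeff_zero_eq_constantCoeff_apply, hψ.1]
  set ψt := tilde U ψ with hψt
  have hψt0 : PowerSeries.constantCoeff ψt = 0 := constantCoeff_tilde hψ.1
  have hψts : PowerSeries.HasSubst ψt := PowerSeries.HasSubst.of_constantCoeff_zero' hψt0
  set Φ : PowerSeries L := PowerSeries.subst ψt (flog p h L) with hΦ
  have hΦ0 : PowerSeries.constantCoeff Φ = 0 :=
    PowerSeries.constantCoeff_subst_eq_zero (a := (ψt : MvPowerSeries Unit L)) hψt0 _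
      constantCoeff_flog
  have hΦsubst : ∀ {σ : Type} (a : MvPowerSeries σ L), constantCoeff a = 0 →
      PowerSeries.subst a Φ = PowerSeries.subst (PowerSeries.subst a ψt) (flog p h L) :=
    fun a ha => PowerSeries.subst_comp_subst_apply hψts
      (PowerSeries.HasSubst.of_constantCoeff_zero ha) _
  -- additivity
  set AL := map sub A with hAL
  have hAL0 : constantCoeff AL = 0 := by rw [hAL, constantCoeff_map, hA0, map_zero]
  have hΦadd : VB U (PowerSeries.subst AL Φ -
      PowerSeries.subst (X (0 : Fin 2) : MvPowerSeries (Fin 2) L) Φ -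
      PowerSeries.subst (X (1 : Fin 2) : MvPowerSeries (Fin 2) L) Φ) ((-K : ℚ) : WithTop ℚ) := by
    set GO : MvPowerSeries (Fin 2) (OC p) := fun d => ⟨coeff d G.toPowerSeries, hint d⟩ with hGO
    have hGOmap : map (OC p).subtype GO = G.toPowerSeries := by
      ext d : 1; rw [coeff_map]; rfl
    have hGO0 : constantCoeff GO = 0 := Subtype.ext G.zero_constantCoeff
    have hGQ : map s GO = map (s.comp kO) Γp := by
      ext d : 1
      rw [coeff_map, coeff_map, RingHom.comp_apply]
      refine sQ_eq_of_close hδ1 ?_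
      have h1 := hclose d
      rw [map_sub, FormalGroup.map_toPowerSeries, coeff_map, hΓeq, coeff_map] at h1
      exact h1
    have hHO : map (OC p).subtype (map kO Hp) = (H.map HahnSeries.C).toPowerSeries := by
      rw [map_map_apply, subtype_comp_kO, FormalGroup.map_toPowerSeries, hHeq, map_map_apply]
    have hHO0 : constantCoeff (map (kO (p := p)) Hp) = 0 := by
      rw [constantCoeff_map, hHp0, map_zero]
    have hX : ∀ (R : Type) [CommRing R] (f : PowerSeries R), PowerSeries.constantCoeff f = 0 →
        ∀ i : Fin 2, constantCoeff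
          (PowerSeries.subst (X i : MvPowerSeries (Fin 2) R) f) = 0 := fun R _ f hf i =>
      PowerSeries.constantCoeff_subst_eq_zero (by simp) f hf
    have hsplit : ∀ {R S : Type} [CommRing R] [CommRing S] (φ : R →+* S) (f : PowerSeries R)
        (F : MvPowerSeries (Fin 2) R), PowerSeries.constantCoeff f = 0 →
        map φ (subst ![PowerSeries.subst (X (0 : Fin 2) : MvPowerSeries (Fin 2) R) f,
          PowerSeries.subst (X (1 : Fin 2) : MvPowerSeries (Fin 2) R) f] F) =
        subst ![PowerSeries.subst (X (0 : Fin 2) : MvPowerSeries (Fin 2) S) (PowerSeries.map φ f),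
          PowerSeries.subst (X (1 : Fin 2) : MvPowerSeries (Fin 2) S) (PowerSeries.map φ f)]
            (map φ F) := by
      intro R S _ _ φ f F hf
      rw [map_subst (hasSubst_pair (hX R f hf 0) (hX R f hf 1))]
      congr 1
      ext i : 1
      fin_cases i <;> simp [PowerSeries.map_subst (PowerSeries.HasSubst.X _)]
    have hid : PowerSeries.subst GO ψO =
        subst ![PowerSeries.subst (X (0 : Fin 2) : MvPowerSeries (Fin 2) (OC p)) ψO,
          PowerSeries.subst (X (1 : Fin 2) : MvPowerSeries (Fin 2) (OC p)) ψO] (map kO Hp) := by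
      apply map_inj (f := (OC p).subtype) Subtype.coe_injective
      rw [PowerSeries.map_subst (PowerSeries.HasSubst.of_constantCoeff_zero hGO0), hGOmap,
        hψOmap, hsplit _ _ _ hψO0, hψOmap, hHO]
      exact hψ.2
    have hQ : map mkQ (PowerSeries.subst A ψL) =
        map mkQ (subst ![PowerSeries.subst (X (0 : Fin 2) : MvPowerSeries (Fin 2) (OL U)) ψL,
          PowerSeries.subst (X (1 : Fin 2) : MvPowerSeries (Fin 2) (OL U)) ψL] Ah) := by
      have h1 := congrArg (map s) hid
      rw [PowerSeries.map_subst (PowerSeries.HasSubst.of_constantCoeff_zero hGO0), hGQ,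
        hsplit _ _ _ hψO0, map_map_apply] at h1
      rw [PowerSeries.map_subst (PowerSeries.HasSubst.of_constantCoeff_zero hA0), hAΓ,
        hsplit _ _ _ hψL0, hAH, hψQ]
      exact h1
    have h2 := vb_of_map_eq hQ
    have h3 := vb_integral (PowerSeries.subst A ψL)
    have h4 := vb_integral (subst ![PowerSeries.subst (X (0 : Fin 2) : MvPowerSeries (Fin 2) (OL U))
      ψL, PowerSeries.subst (X (1 : Fin 2) : MvPowerSeries (Fin 2) (OL U)) ψL] Ah)
    rw [PowerSeries.map_subst (PowerSeries.HasSubst.of_constantCoeff_zero hA0),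
      hsplit _ _ _ hψL0, hψLmap] at h2
    rw [PowerSeries.map_subst (PowerSeries.HasSubst.of_constantCoeff_zero hA0), hψLmap] at h3
    rw [hsplit _ _ _ hψL0, hψLmap] at h4
    have hpair := hasSubst_pair (hX L ψt hψt0 0) (hX L ψt hψt0 1)
    have hAhL0 : constantCoeff (map sub Ah) = 0 := by rw [constantCoeff_map, hAh0, map_zero]
    have h5 := hK h hh _ _ _ (PowerSeries.constantCoeff_subst_eq_zero hAL0 _ hψt0)
      (constantCoeff_subst_eq_zero hpair (fun i => by
        fin_cases i <;> [exact hX L ψt hψt0 0; exact hX L ψt hψt0 1]) hAhL0) h3 h4 h2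
    rw [← subst_log hAhL0 hpair, hAhlog, subst_add hpair, subst_log (constantCoeff_X _) hpair,
      subst_log (constantCoeff_X _) hpair, subst_X hpair, subst_X hpair] at h5
    rw [hΦsubst AL hAL0, hΦsubst _ (constantCoeff_X _), hΦsubst _ (constantCoeff_X _), sub_sub]
    simpa using h5
  -- the functional equation
  have hpL : (p : L) ≠ 0 := Sharp.p_ne_zero U
  set q := p ^ h with hq
  have hqn : p ^ n ≠ 0 := pow_ne_zero _ hp.out.ne_zero
  have hΦrec : VB U ((p : PowerSeries L) * Φ -
      PowerSeries.subst (PowerSeries.X ^ p ^ n : PowerSeries L) Φ)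
      ((-K : ℚ) : WithTop ℚ) := by
    set PO : PowerSeries (OC p) := PowerSeries.mk fun i => ⟨PowerSeries.coeff i (mulSeries G p),
      intCoeff_iff₁.mp (intCoeff_mulSeries (c := RingHom.id (C p)) hint p) i⟩ with hPO
    have hPOmap : PowerSeries.map (OC p).subtype PO = mulSeries G p := by
      ext i; simp [hPO, PowerSeries.coeff_map]
    have hPO0 : PowerSeries.constantCoeff PO = 0 := by
      refine Subtype.ext ?_
      rw [← PowerSeries.coeff_zero_eq_constantCoeff_apply, hPO, PowerSeries.coeff_mk]
      show PowerSeries.coeff 0 (mulSeries G p) = 0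
      rw [PowerSeries.coeff_zero_eq_constantCoeff_apply, constantCoeff_mulSeries]
    have hPQ : PowerSeries.map s PO = PowerSeries.X ^ p ^ n := by
      rw [← PowerSeries.map_X s, ← map_pow]
      ext i
      rw [PowerSeries.coeff_map, PowerSeries.coeff_map]
      refine sQ_eq_of_close hδ1 ?_
      have h1 := hclosep i
      rw [map_sub] at h1
      have e1 : ((PowerSeries.coeff i (PowerSeries.X ^ p ^ n : PowerSeries (OC p)) : OC p) : C p)
          = PowerSeries.coeff i (PowerSeries.X ^ p ^ n : PowerSeries (C p)) := by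
        rw [PowerSeries.coeff_X_pow, PowerSeries.coeff_X_pow]
        split_ifs <;> simp
      rw [e1, hPO, PowerSeries.coeff_mk]
      exact h1
    have hid : PowerSeries.subst PO ψO = ψO ^ q := by
      apply map_inj (σ := Unit) (f := (OC p).subtype) Subtype.coe_injective
      show PowerSeries.map (OC p).subtype _ = PowerSeries.map (OC p).subtype _
      rw [map_pow, hψOmap]
      refine (PowerSeries.map_subst
        (PowerSeries.HasSubst.of_constantCoeff_zero' hPO0) ψO).trans ?_
      rw [hψOmap]
      show PowerSeries.subst (PowerSeries.map (OC p).subtype PO) ψ = _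
      rw [hPOmap, hψ.subst_mulSeries, ← map_mulSeries, hH.1, map_pow, PowerSeries.map_X,
        PowerSeries.subst_pow hψ.hasSubst, PowerSeries.subst_X hψ.hasSubst]
    have hXn : PowerSeries.HasSubst (PowerSeries.X ^ p ^ n : PowerSeries (OL U)) :=
      PowerSeries.HasSubst.X_pow hqn
    have hsub1 : PowerSeries.map sub (PowerSeries.subst (PowerSeries.X ^ p ^ n) ψL) =
        PowerSeries.subst (PowerSeries.X ^ p ^ n : PowerSeries L) ψt := by
      refine (PowerSeries.map_subst hXn ψL).trans ?_
      show PowerSeries.subst (PowerSeries.map sub (PowerSeries.X ^ p ^ n)) _ = _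
      rw [map_pow, PowerSeries.map_X, hψLmap]
    have hQ : PowerSeries.map mkQ (PowerSeries.subst (PowerSeries.X ^ p ^ n) ψL) =
        PowerSeries.map mkQ (ψL ^ q) := by
      rw [map_pow, hψQ, ← map_pow, ← hid]
      refine (PowerSeries.map_subst hXn ψL).trans ?_
      refine Eq.trans ?_ (PowerSeries.map_subst
        (PowerSeries.HasSubst.of_constantCoeff_zero' hPO0) ψO).symm
      show PowerSeries.subst (PowerSeries.map mkQ (PowerSeries.X ^ p ^ n)) _ =
        PowerSeries.subst (PowerSeries.map s PO) _
      rw [map_pow, PowerSeries.map_X, hPQ, hψQ]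
    have h2 := vb_of_map_eq (σ := Unit) hQ
    have h3 := vb_integral (U := U) (σ := Unit) (PowerSeries.subst (PowerSeries.X ^ p ^ n) ψL)
    have h4 := vb_integral (U := U) (σ := Unit) (ψL ^ q)
    change VB U (PowerSeries.map sub _ - PowerSeries.map sub _ : PowerSeries L) _ at h2
    change VB U (PowerSeries.map sub _ : PowerSeries L) _ at h3
    change VB U (PowerSeries.map sub _ : PowerSeries L) _ at h4
    rw [hsub1, map_pow, hψLmap] at h2
    rw [hsub1] at h3
    rw [map_pow, hψLmap] at h4
    have hq0 : PowerSeries.constantCoeff (ψt ^ q) = 0 := by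
      rw [map_pow, hψt0, zero_pow (pow_ne_zero _ hp.out.ne_zero)]
    have hXn0 : PowerSeries.constantCoeff (PowerSeries.X ^ p ^ n : PowerSeries L) = 0 := by
      rw [map_pow, PowerSeries.constantCoeff_X, zero_pow hqn]
    have h5 := hK h hh Unit _ _
      (PowerSeries.constantCoeff_subst_eq_zero
        (a := ((PowerSeries.X ^ p ^ n : PowerSeries L) : MvPowerSeries Unit L)) hXn0 ψt hψt0)
      hq0 h3 h4 h2
    have hrec := log_rec (σ := Unit) hh hpL (A := (ψt : MvPowerSeries Unit L)) hψt0
    have h6 : VB U ((p : MvPowerSeries Unit L) * (ψt : MvPowerSeries Unit L))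
        ((-K : ℚ) : WithTop ℚ) := by
      refine (VB.natCast_mul p ?_).mono (le_refl _)
      refine VB.mono ?_ (WithTop.coe_le_coe.mpr (neg_nonpos.mpr hK0))
      have := vb_integral (U := U) (σ := Unit) ψL
      change VB U (PowerSeries.map sub _ : PowerSeries L) _ at this
      rwa [hψLmap] at this
    rw [← hrec] at h6
    have h7 := h6.sub h5
    rw [hΦsubst _ hXn0]
    convert h7 using 1
    rw [hΦ, hq]
    exact (sub_sub_sub_cancel_right _ _ _).symm.trans (by ring_nf)
  have hstep : ∀ m, ((-K : ℚ) : WithTop ℚ) ≤ U.v ((p : L) * PowerSeries.coeff (p ^ n * m) Φ -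
      PowerSeries.coeff m Φ) := by
    intro m
    have h1 := hΦrec (Finsupp.single () (p ^ n * m))
    change _ ≤ U.v (PowerSeries.coeff (p ^ n * m) _) at h1
    rw [map_sub, PowerSeries.coeff_subst_X_pow hqn, if_pos (dvd_mul_right _ _),
      Nat.mul_div_cancel_left _ (Nat.pos_of_ne_zero hqn), ← map_natCast (PowerSeries.C (R := L)),
      PowerSeries.coeff_C_mul] at h1
    simpa using h1
  -- the constants
  set S : Fin n → ℕ → L := fun j k => (p : L) ^ k * PowerSeries.coeff (p ^ (n * k + j)) Φ with hS
  have hSstep : ∀ (j : Fin n) (k : ℕ), (((k : ℚ) - K : ℚ) : WithTop ℚ) ≤ U.v (S j (k + 1) - S j k) := by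
    intro j k
    have h1 := hstep (p ^ (n * k + j))
    rw [← pow_add, show n + (n * k + j) = n * (k + 1) + j by ring] at h1
    rw [hS, show (p : L) ^ (k + 1) * PowerSeries.coeff (p ^ (n * (k + 1) + j)) Φ -
      (p : L) ^ k * PowerSeries.coeff (p ^ (n * k + j)) Φ = (p : L) ^ k *
        ((p : L) * PowerSeries.coeff (p ^ (n * (k + 1) + j)) Φ -
          PowerSeries.coeff (p ^ (n * k + j)) Φ) by ring, AddValuation.map_mul, Sharp.v_p_pow,
      sub_eq_add_neg, WithTop.coe_add]
    exact add_le_add le_rfl h1
  have hcex : ∀ j : Fin n, ∃ y, ∀ k : ℕ, (((k : ℚ) - K : ℚ) : WithTop ℚ) ≤ U.v (y - S j k) := by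
    intro j
    obtain ⟨y, hy⟩ := U.complete (S j) fun B => by
      obtain ⟨N, hN⟩ := exists_nat_gt (B + K)
      refine ⟨N, fun i hi => lt_of_lt_of_le (WithTop.coe_lt_coe.mpr ?_) (hSstep j i)⟩
      have : (N : ℚ) ≤ i := by exact_mod_cast hi
      linarith
    refine ⟨y, fun k => ?_⟩
    have htel : ∀ i : ℕ, k ≤ i → (((k : ℚ) - K : ℚ) : WithTop ℚ) ≤ U.v (S j i - S j k) := by
      intro i hi
      induction i, hi using Nat.le_induction with
      | base => simp
      | succ i hki ih =>
        rw [show S j (i + 1) - S j k = (S j (i + 1) - S j i) + (S j i - S j k) by ring]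
        refine AddValuation.map_le_add _ (le_trans (WithTop.coe_le_coe.mpr ?_) (hSstep j i)) ih
        have : (k : ℚ) ≤ i := by exact_mod_cast hki
        linarith
    obtain ⟨N, hN⟩ := hy ((k : ℚ) - K)
    rw [show y - S j k = (y - S j (max N k)) + (S j (max N k) - S j k) by ring]
    exact AddValuation.map_le_add _ (hN _ (le_max_left _ _)).le (htel _ (le_max_right _ _))
  choose c hc using hcex
  -- the error of each twisted logarithm
  have htadd : ∀ j : ℕ, VB U (PowerSeries.subst AL (twist p n L j) -
      PowerSeries.subst (X (0 : Fin 2) : MvPowerSeries (Fin 2) L) (twist p n L j) -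
      PowerSeries.subst (X (1 : Fin 2) : MvPowerSeries (Fin 2) L) (twist p n L j))
      ((-K : ℚ) : WithTop ℚ) := by
    intro j
    have hj0 : p ^ j ≠ 0 := pow_ne_zero _ hp.out.ne_zero
    have hexp : map (s.comp kO) Γp ^ p ^ j =
        subst (fun i : Fin 2 => (X i : MvPowerSeries (Fin 2) (QL U δ)) ^ p ^ j)
          (map (s.comp kO) Γp) := by
      have h1 := MvPowerSeries.map_iterateFrobenius_expand p hp.out.ne_zero Γp j
      have h0 : iterateFrobenius (ZMod p) p j = RingHom.id _ := Subsingleton.elim _ _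
      rw [h0, MvPowerSeries.map_id, RingHom.id_apply] at h1
      have h2 := congrArg (map (s.comp kO)) h1
      rw [map_pow, MvPowerSeries.expand, coe_substAlgHom, map_subst (HasSubst.X_pow hj0)] at h2
      rw [← h2]
      congr 1
      funext i
      simp [map_pow]
    have hsub' : ∀ {R S : Type} [CommRing R] [CommRing S] (φ : R →+* S)
        (F : MvPowerSeries (Fin 2) R),
        map φ (subst (fun i : Fin 2 => (X i : MvPowerSeries (Fin 2) R) ^ p ^ j) F) =
          subst (fun i : Fin 2 => (X i : MvPowerSeries (Fin 2) S) ^ p ^ j) (map φ F) := by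
      intro R S _ _ φ F
      rw [map_subst (HasSubst.X_pow hj0)]
      congr 1
      funext i
      simp [map_pow]
    have hQ : map mkQ (A ^ p ^ j) =
        map mkQ (subst (fun i : Fin 2 => (X i : MvPowerSeries (Fin 2) (OL U)) ^ p ^ j) A) := by
      rw [map_pow, hsub', hAΓ, hexp]
    have h2 := vb_of_map_eq hQ
    have h3 := vb_integral (A ^ p ^ j)
    have h4 := vb_integral
      (subst (fun i : Fin 2 => (X i : MvPowerSeries (Fin 2) (OL U)) ^ p ^ j) A)
    rw [hsub', map_pow] at h2
    rw [map_pow] at h3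
    rw [hsub'] at h4
    have hXp : HasSubst (fun i : Fin 2 => (X i : MvPowerSeries (Fin 2) L) ^ p ^ j) :=
      HasSubst.X_pow hj0
    have h5 := hK n hn _ _ _ (by rw [map_pow, hAL0, zero_pow hj0])
      (constantCoeff_subst_eq_zero hXp (fun i => by simp [hp.out.ne_zero]) hAL0) h3 h4 h2
    rw [← subst_log hAL0 hXp, hAlog, subst_add hXp, subst_log (constantCoeff_X _) hXp,
      subst_log (constantCoeff_X _) hXp, subst_X hXp, subst_X hXp] at h5
    have htw : ∀ a : MvPowerSeries (Fin 2) L, constantCoeff a = 0 →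
        PowerSeries.subst a (twist p n L j) = PowerSeries.subst (a ^ p ^ j) (flog p n L) := by
      intro a ha
      have ha' := PowerSeries.HasSubst.of_constantCoeff_zero ha
      rw [twist, PowerSeries.subst_comp_subst_apply (PowerSeries.HasSubst.X_pow hj0) ha',
        PowerSeries.subst_pow ha', PowerSeries.subst_X ha']
    rw [htw _ hAL0, htw _ (constantCoeff_X _), htw _ (constantCoeff_X _), sub_sub]
    exact h5
  -- the remainder
  obtain ⟨C₀, hC₀0, hC₀⟩ : ∃ C₀ : ℚ, C₀ ≤ 0 ∧ ∀ j, (C₀ : WithTop ℚ) ≤ U.v (c j) := by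
    have : ∀ x : L, ∃ q : ℚ, q ≤ 0 ∧ (q : WithTop ℚ) ≤ U.v x := fun x => by
      rcases eq_or_ne x 0 with rfl | hx
      · exact ⟨0, le_rfl, by simp⟩
      · obtain ⟨q, hq'⟩ := WithTop.ne_top_iff_exists.1 ((AddValuation.ne_top_iff U.v).2 hx)
        exact ⟨min q 0, min_le_right _ _, hq' ▸ WithTop.coe_le_coe.2 (min_le_left _ _)⟩
    choose qf hqf0 hqf using this
    refine ⟨∑ j, qf (c j), Finset.sum_nonpos fun j _ => hqf0 _, fun j => le_trans
      (WithTop.coe_le_coe.2 ?_) (hqf (c j))⟩
    have := Finset.single_le_sum (f := fun i => -qf (c i))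
      (fun i _ => neg_nonneg.2 (hqf0 _)) (Finset.mem_univ j)
    rw [Finset.sum_neg_distrib] at this
    linarith
  refine ⟨c, C₀ - K, fun d => ?_⟩
  set R : PowerSeries L := Φ - ∑ j : Fin n, PowerSeries.C (c j) * twist p n L j with hR
  rw [show d = Finsupp.single () (d ()) from Finsupp.unique_single d]
  have hR0 : PowerSeries.constantCoeff R = 0 := by
    rw [hR, map_sub, hΦ0, map_sum, Finset.sum_eq_zero, sub_zero]
    intro j _
    rw [map_mul, twist, PowerSeries.constantCoeff_subst_X_pow (pow_ne_zero _ hp.out.ne_zero),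
      constantCoeff_flog]
    simp
  refine vb_of_additive hn hAL0 (vb_integral A) hAlog hR0 (fun t => ?_) ?_ (d ())
  · obtain ⟨k, j, rfl⟩ : ∃ (k : ℕ) (j : Fin n), t = n * k + j :=
      ⟨t / n, ⟨t % n, Nat.mod_lt _ hn⟩, (Nat.div_add_mod t n).symm⟩
    have hcoef : ∀ j' : Fin n, PowerSeries.coeff (p ^ (n * k + j)) (twist p n L j') =
        if j' = j then ((p : L) ^ k)⁻¹ else 0 := by
      intro j'
      have hd : p ^ (n * k + j) < p ^ ((k + 1) * n) :=
        Nat.pow_lt_pow_right hp.out.one_lt (by have := j.isLt; nlinarith)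
      rw [coeff_twist hn _ hd]
      split_ifs with hj
      · subst hj
        rw [Finset.sum_eq_single k (fun i _ hi => ?_) (by simp), if_pos (by ring_nf), mul_one]
        rw [if_neg, mul_zero]
        intro he
        exact hi (eq_of_twist_index (j := j') (j' := j')
          (Nat.pow_right_injective hp.out.two_le he).symm).2
      · refine Finset.sum_eq_zero fun i _ => ?_
        rw [if_neg, mul_zero]
        intro he
        exact hj (eq_of_twist_index (Nat.pow_right_injective hp.out.two_le he).symm).1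
    rw [hR, map_sub, map_sum]
    simp only [PowerSeries.coeff_C_mul, hcoef, mul_ite, mul_zero, Finset.sum_ite_eq',
      Finset.mem_univ, if_true]
    have hpk : (p : L) ^ k ≠ 0 := pow_ne_zero _ hpL
    rw [show PowerSeries.coeff (p ^ (n * k + j)) Φ - c j * ((p : L) ^ k)⁻¹ =
      -(((p : L) ^ k)⁻¹ * (c j - S j k)) by rw [hS]; field_simp; ring, AddValuation.map_neg,
      AddValuation.map_mul, ← zpow_natCast, ← zpow_neg, Sharp.v_p_zpow]
    refine le_trans ?_ (add_le_add le_rfl (hc j k))
    rw [← WithTop.coe_add, WithTop.coe_le_coe]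
    push_cast
    linarith
  · have hlin : ∀ a : MvPowerSeries (Fin 2) L, constantCoeff a = 0 →
        PowerSeries.subst a R = PowerSeries.subst a Φ -
          ∑ j : Fin n, MvPowerSeries.C (c j) * PowerSeries.subst a (twist p n L j) := by
      intro a ha
      have ha' := PowerSeries.HasSubst.of_constantCoeff_zero ha
      rw [hR, ← PowerSeries.coe_substAlgHom ha', map_sub, map_sum]
      congr 1
      refine Finset.sum_congr rfl fun j _ => ?_
      rw [map_mul, PowerSeries.coe_substAlgHom, PowerSeries.subst_C]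
    rw [hlin _ hAL0, hlin _ (constantCoeff_X _), hlin _ (constantCoeff_X _)]
    have hSum : VB U (∑ j : Fin n, MvPowerSeries.C (c j) * (PowerSeries.subst AL (twist p n L j) -
        PowerSeries.subst (X (0 : Fin 2) : MvPowerSeries (Fin 2) L) (twist p n L j) -
        PowerSeries.subst (X (1 : Fin 2) : MvPowerSeries (Fin 2) L) (twist p n L j)))
        ((C₀ - K : ℚ) : WithTop ℚ) := by
      refine vb_sum _ fun j _ => ?_
      rw [sub_eq_add_neg C₀, WithTop.coe_add]
      exact (vb_C (hC₀ j)).mul (htadd j)
    have hΦ' := hΦadd.mono (B' := ((C₀ - K : ℚ) : WithTop ℚ))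
      (WithTop.coe_le_coe.2 (by linarith))
    convert hΦ'.sub hSum using 1
    simp only [mul_sub, Finset.sum_sub_distrib]
    ring

end

end Vale.Agent.P217.Linear
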