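import Vale.Agent.P217.Linear.Log
import Vale.Agent.P217.Sharp.Trunc

/-!
P217, module M6: the valuation ring of an untilt modulo an ideal, and lifts of Honda laws
with their exact logarithm.
-/

namespace Vale.Agent.P217.Linear

noncomputable section

open MvPowerSeries

variable {p : ℕ} [hp : Fact p.Prime] {L : Type} [Field L] (U : Untilt p L)

/-- The elements of nonnegative valuation. -/
def OL : Subring L where
  carrier := {x | 0 ≤ U.v x}
  mul_mem' := fun {a b} ha hb => by
    simp only [Set.mem_setOf_eq, AddValuation.map_mul] at ha hb ⊢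
    exact add_nonneg ha hb
  one_mem' := by simp
  add_mem' := fun {a b} (ha : 0 ≤ U.v a) (hb : 0 ≤ U.v b) => (AddValuation.map_le_add _ ha hb : 0 ≤ U.v (a + b))
  zero_mem' := by simp
  neg_mem' := fun {a} ha => by simpa [AddValuation.map_neg] using ha

/-- The elements of valuation at least `δ`. -/
def Idl (δ : ℚ) : Ideal (OL U) where
  carrier := {x | (δ : WithTop ℚ) ≤ U.v (x : L)}
  add_mem' := fun {a b} ha hb => by
    simp only [Set.mem_setOf_eq, Subring.coe_add] at ha hb ⊢
    exact AddValuation.map_le_add _ ha hb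
  zero_mem' := by simp
  smul_mem' := fun a b hb => by
    simp only [Set.mem_setOf_eq, smul_eq_mul, Subring.coe_mul, AddValuation.map_mul] at hb ⊢
    exact hb.trans (le_add_of_nonneg_left a.2)

/-- The valuation ring modulo `δ`. -/
abbrev QL (δ : ℚ) : Type := OL U ⧸ Idl U δ

variable {U} {δ : ℚ}

lemma mk_eq_mk {a b : OL U} :
    (Ideal.Quotient.mk (Idl U δ) a) = Ideal.Quotient.mk (Idl U δ) b ↔
      (δ : WithTop ℚ) ≤ U.v ((a : L) - b) := by
  rw [Ideal.Quotient.eq]
  rfl

/-- Congruent integral series have congruent coefficients. -/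
lemma vb_of_map_eq {σ : Type*} {A B : MvPowerSeries σ (OL U)}
    (h : map (Ideal.Quotient.mk (Idl U δ)) A = map (Ideal.Quotient.mk (Idl U δ)) B) :
    VB U (map (OL U).subtype A - map (OL U).subtype B) (δ : WithTop ℚ) := fun d => by
  have := congrArg (coeff d) h
  rw [coeff_map, coeff_map, mk_eq_mk] at this
  simpa [coeff_map] using this

lemma vb_integral {σ : Type*} (A : MvPowerSeries σ (OL U)) : VB U (map (OL U).subtype A) 0 :=
  fun d => by rw [coeff_map]; exact (coeff d A).2

/-- The sharp map modulo `δ`. -/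
def sQ (hδ1 : δ ≤ 1) : OC p →+* QL U δ where
  toFun x := Ideal.Quotient.mk _ ⟨U.sharp (x : C p), by
    show 0 ≤ U.v _
    rw [U.v_sharp]; exact x.2⟩
  map_one' := by
    rw [← map_one (Ideal.Quotient.mk (Idl U δ)), mk_eq_mk]
    simp
  map_mul' x y := by
    rw [← map_mul, mk_eq_mk]
    simp
  map_zero' := by
    rw [← map_zero (Ideal.Quotient.mk (Idl U δ)), mk_eq_mk]
    simp [U.sharp_zero]
  map_add' x y := by
    rw [← map_add, mk_eq_mk]
    show (δ : WithTop ℚ) ≤ U.v (U.sharp ((x : C p) + y) - (U.sharp (x : C p) + U.sharp (y : C p)))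
    rw [← sub_sub]
    exact le_trans (by exact_mod_cast hδ1) (U.sharp_add _ _ x.2 y.2)

lemma sQ_eq_mk (hδ1 : δ ≤ 1) (x : OC p) (a : OL U) (h : (a : L) = U.sharp (x : C p)) :
    sQ hδ1 x = Ideal.Quotient.mk (Idl U δ) a := by
  show Ideal.Quotient.mk _ _ = _
  congr 1
  exact Subtype.ext h.symm

lemma sQ_eq_zero (hδ1 : δ ≤ 1) {x : OC p} (h : (δ : WithTop ℚ) ≤ ord (x : C p)) :
    sQ (U := U) hδ1 x = 0 := by
  show Ideal.Quotient.mk _ _ = 0
  rw [Ideal.Quotient.eq_zero_iff_mem]
  show (δ : WithTop ℚ) ≤ U.v _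
  rw [U.v_sharp]
  exact h

lemma sQ_eq_of_close (hδ1 : δ ≤ 1) {x y : OC p} (h : (δ : WithTop ℚ) ≤ ord ((x : C p) - (y : C p))) :
    sQ (U := U) hδ1 x = sQ hδ1 y := by
  rw [← sub_eq_zero, ← map_sub]
  exact sQ_eq_zero hδ1 (by simpa using h)

/-- The prime field inside the valuation ring of `C p`. -/
def kO : ZMod p →+* OC p :=
  ((HahnSeries.C : Kb p →+* C p).comp (algebraMap (ZMod p) (Kb p))).codRestrict (OC p)
    fun _ => ord_C_nonneg _

lemma subtype_comp_kO :
    (OC p).subtype.comp (kO (p := p)) =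
      (HahnSeries.C : Kb p →+* C p).comp (algebraMap (ZMod p) (Kb p)) := rfl

theorem charZero {p : ℕ} [hp : Fact p.Prime] {L : Type} [Field L] (U : Untilt p L) :
    CharZero L := by
  refine charZero_of_inj_zero fun k hk => ?_
  by_contra hne
  obtain ⟨e, m, hm, rfl⟩ :=
    Nat.exists_eq_pow_mul_and_not_dvd hne p hp.out.ne_one
  rw [Nat.cast_mul, Nat.cast_pow, mul_eq_zero] at hk
  rcases hk with hk | hk
  · exact pow_ne_zero e (Sharp.p_ne_zero U) hk
  · obtain ⟨a, b, hab⟩ : ∃ a b : ℤ, (1 : ℤ) = p * a + m * b :=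
      ⟨_, _, by
        rw [← Nat.gcd_eq_gcd_ab, ((hp.out.coprime_iff_not_dvd).mpr hm).gcd_eq_one, Nat.cast_one]⟩
    have h1 : (1 : L) = (p : L) * (a : L) := by
      have := congrArg (fun z : ℤ => (z : L)) hab
      push_cast at this
      rw [this, hk, zero_mul, add_zero]
    have h2 := congrArg U.v h1
    rw [AddValuation.map_one, AddValuation.map_mul, Sharp.v_p] at h2
    have h3 : ((1 : ℚ) : WithTop ℚ) ≤ ((0 : ℚ) : WithTop ℚ) :=
      le_of_le_of_eq (le_add_of_nonneg_right (Sharp.v_intCast_nonneg U a)) (by simpa using h2.symm)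
    rw [WithTop.coe_le_coe] at h3
    linarith

variable (p) in
/-- The rationals without p in the denominator. -/
def qInt : Subring ℚ := (PadicInt.subring p).comap (algebraMap ℚ ℚ_[p])

lemma mem_qInt {q : ℚ} : q ∈ qInt p ↔ ‖(q : ℚ_[p])‖ ≤ 1 := by
  simp [qInt, PadicInt.subring]

lemma not_dvd_den {q : ℚ} (hq : q ∈ qInt p) : ¬ p ∣ q.den := by
  intro h
  rw [mem_qInt] at hq
  have hnum : ¬ (p : ℤ) ∣ q.num := fun h' => by
    have h1 : p ∣ q.num.natAbs := Int.natCast_dvd.mp h'
    exact Nat.not_coprime_of_dvd_of_dvd hp.out.one_lt h1 h q.reduced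
  have e : (q : ℚ_[p]) * (q.den : ℚ_[p]) = (q.num : ℚ_[p]) := by
    exact_mod_cast Rat.mul_den_eq_num q
  have h2 : ‖(q.num : ℚ_[p])‖ < 1 := by
    rw [← e, norm_mul]
    calc ‖(q : ℚ_[p])‖ * ‖(q.den : ℚ_[p])‖ ≤ 1 * ‖(q.den : ℚ_[p])‖ :=
          mul_le_mul_of_nonneg_right hq (norm_nonneg _)
      _ < 1 := by rw [one_mul]; exact (Padic.norm_natCast_lt_one_iff (p := p)).mpr h
  exact hnum (Padic.norm_intCast_lt_one_iff.mp h2)

variable (U) in
lemma cast_mem_OL {q : ℚ} (hq : q ∈ qInt p) : (q : L) ∈ OL U := by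
  haveI := charZero U
  show 0 ≤ U.v (q : L)
  obtain ⟨a, b, hab⟩ : ∃ a b : ℤ, (1 : ℤ) = p * a + q.den * b :=
    ⟨_, _, by
      rw [← Nat.gcd_eq_gcd_ab, ((hp.out.coprime_iff_not_dvd).mpr (not_dvd_den hq)).gcd_eq_one,
        Nat.cast_one]⟩
  have h1 : (1 : L) = (p : L) * (a : L) + (q.den : L) * (b : L) := by
    have := congrArg (fun z : ℤ => (z : L)) hab
    push_cast at this
    exact this
  have hd : U.v (q.den : L) = 0 := by
    refine le_antisymm ?_ (Sharp.v_natCast_nonneg U _)
    by_contra hlt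
    push Not at hlt
    have h2 : (0 : WithTop ℚ) < U.v (1 : L) := by
      rw [h1]
      refine lt_of_lt_of_le (lt_min ?_ ?_) (AddValuation.map_add _ _ _)
      · rw [AddValuation.map_mul, Sharp.v_p]
        exact lt_of_lt_of_le (by exact_mod_cast (zero_lt_one : (0 : ℚ) < 1))
          (le_add_of_nonneg_right (Sharp.v_intCast_nonneg U a))
      · rw [AddValuation.map_mul]
        exact lt_of_lt_of_le hlt (le_add_of_nonneg_right (Sharp.v_intCast_nonneg U b))
    simp at h2
  have e : (q : L) * (q.den : L) = (q.num : L) := by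
    exact_mod_cast Rat.mul_den_eq_num q
  have := congrArg U.v e
  rw [AddValuation.map_mul, hd, add_zero] at this
  rw [this]
  exact Sharp.v_intCast_nonneg U _

variable (U) in
/-- The rationals without p in the denominator, inside the valuation ring. -/
def qToOL : qInt p →+* OL U :=
  haveI := charZero U
  ((Rat.castHom L).comp (qInt p).subtype).codRestrict (OL U) fun q => cast_mem_OL U q.2

/-- The rationals without p in the denominator, inside the p-adic integers. -/
def qToZp : qInt p →+* ℤ_[p] where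
  toFun q := ⟨((q : ℚ) : ℚ_[p]), mem_qInt.mp q.2⟩
  map_one' := PadicInt.ext (by simp)
  map_mul' a b := PadicInt.ext (Rat.cast_mul (a : ℚ) b)
  map_zero' := PadicInt.ext (by simp)
  map_add' a b := PadicInt.ext (Rat.cast_add (a : ℚ) b)

variable (U) in
/-- Both reductions of a p-integral rational agree. -/
lemma reduce_comm (hδ1 : δ ≤ 1) :
    (Ideal.Quotient.mk (Idl U δ)).comp (qToOL U) =
      ((sQ hδ1).comp kO).comp (PadicInt.toZMod.comp qToZp) := by
  refine RingHom.ext fun q => ?_
  have hd := not_dvd_den q.2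
  have e : q * (q.1.den : qInt p) = ((q.1.num : ℤ) : qInt p) :=
    Subtype.ext (by simpa using Rat.mul_den_eq_num q.1)
  set F := (Ideal.Quotient.mk (Idl U δ)).comp (qToOL U)
  set G := ((sQ (U := U) hδ1).comp kO).comp (PadicInt.toZMod.comp qToZp)
  have hu : IsUnit (G (q.1.den : qInt p)) := by
    rw [map_natCast, ← map_natCast ((sQ (U := U) hδ1).comp kO)]
    exact (IsUnit.mk0 _ fun h => hd ((ZMod.natCast_eq_zero_iff _ _).mp h)).map _
  refine hu.mul_right_cancel ?_
  rw [← map_mul, e, map_intCast]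
  calc F q * G (q.1.den : qInt p) = F q * F (q.1.den : qInt p) := by
        rw [map_natCast, map_natCast]
    _ = _ := by rw [← map_mul, e, map_intCast]

lemma map_map_apply {σ R S T : Type*} [CommRing R] [CommRing S] [CommRing T] (f : S →+* T)
    (g : R →+* S) (A : MvPowerSeries σ R) : map f (map g A) = map (f.comp g) A := by
  ext d; simp [coeff_map]

variable (U) in
/-- A lift of a Honda law with exact logarithm. -/
theorem exists_lift_law {m : ℕ} (hm : 1 ≤ m) {G : FormalGroup (Kb p)} (hG : IsHondaKb p m G)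
    (hδ1 : δ ≤ 1) :
    ∃ (A : MvPowerSeries (Fin 2) (OL U)) (Gp : MvPowerSeries (Fin 2) (ZMod p)),
      constantCoeff A = 0 ∧ constantCoeff Gp = 0 ∧
      G.toPowerSeries = map (algebraMap (ZMod p) (Kb p)) Gp ∧
      map (Ideal.Quotient.mk (Idl U δ)) A = map ((sQ hδ1).comp kO) Gp ∧
      PowerSeries.subst (map (OL U).subtype A) (flog p m L) =
        PowerSeries.subst (X (0 : Fin 2) : MvPowerSeries (Fin 2) L) (flog p m L) +
          PowerSeries.subst (X (1 : Fin 2) : MvPowerSeries (Fin 2) L) (flog p m L) := by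
  haveI := charZero U
  obtain ⟨-, L₀, hL₀, f, hf, hlog⟩ := hG
  have hff : f = flog p m ℚ_[p] := by
    ext i; rw [hf, flog, PowerSeries.coeff_mk]
  subst hff
  have hu : IsUnit (PowerSeries.coeff 1 (flog p m ℚ)) := by
    rw [coeff_one_flog hm]; exact isUnit_one
  set g := (flog p m ℚ).substInvOfIsUnit hu with hg
  set a := PowerSeries.subst (X (0 : Fin 2) : MvPowerSeries (Fin 2) ℚ) (flog p m ℚ) +
    PowerSeries.subst (X (1 : Fin 2) : MvPowerSeries (Fin 2) ℚ) (flog p m ℚ) with ha
  have ha0 : constantCoeff a = 0 := by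
    rw [ha, map_add, PowerSeries.constantCoeff_subst_eq_zero (by simp) _ constantCoeff_flog,
      PowerSeries.constantCoeff_subst_eq_zero (by simp) _ constantCoeff_flog, add_zero]
  have hg0 : PowerSeries.constantCoeff g = 0 := PowerSeries.constantCoeff_substInvOfIsUnit _ hu
  set γ := PowerSeries.subst a g with hγ
  have hγ0 : constantCoeff γ = 0 := PowerSeries.constantCoeff_subst_eq_zero ha0 g hg0
  have has : PowerSeries.HasSubst a := PowerSeries.HasSubst.of_constantCoeff_zero ha0
  have hfγ : PowerSeries.subst γ (flog p m ℚ) = a := by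
    rw [hγ, ← PowerSeries.subst_comp_subst_apply
      (PowerSeries.HasSubst.of_constantCoeff_zero' hg0) has,
      PowerSeries.subst_substInvOfIsUnit_right _ constantCoeff_flog hu, PowerSeries.subst_X has]
  -- the p-adic image is the given lift
  have hγL : map (Rat.castHom ℚ_[p]) γ = map PadicInt.Coe.ringHom L₀.toPowerSeries := by
    have hL := PowerSeries.HasSubst.of_constantCoeff_zero
      (L₀.map PadicInt.Coe.ringHom).zero_constantCoeff
    have hinv : PowerSeries.subst (flog p m ℚ_[p]) (PowerSeries.map (Rat.castHom ℚ_[p]) g) =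
        PowerSeries.X := by
      have h := congrArg (PowerSeries.map (Rat.castHom ℚ_[p]))
        (PowerSeries.subst_substInvOfIsUnit_left (flog p m ℚ) constantCoeff_flog hu)
      rw [PowerSeries.map_X] at h
      rw [← h, ← map_flog (p := p) (m := m) (Rat.castHom ℚ_[p])]
      exact (PowerSeries.map_subst
        (PowerSeries.HasSubst.of_constantCoeff_zero' constantCoeff_flog) g).symm
    have hmapa : map (Rat.castHom ℚ_[p]) a =
        PowerSeries.subst ((L₀.map PadicInt.Coe.ringHom : FormalGroup ℚ_[p]) :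
          MvPowerSeries (Fin 2) ℚ_[p]) (flog p m ℚ_[p]) := by
      rw [hlog, ha, map_add, PowerSeries.map_subst (PowerSeries.HasSubst.X _),
        PowerSeries.map_subst (PowerSeries.HasSubst.X _), map_X, map_X, map_flog]
    rw [hγ, PowerSeries.map_subst has, hmapa, ← PowerSeries.subst_comp_subst_apply
      (PowerSeries.HasSubst.of_constantCoeff_zero' constantCoeff_flog) hL, hinv,
      PowerSeries.subst_X hL, FormalGroup.map_toPowerSeries]
  have hint : ∀ d, coeff d γ ∈ qInt p := fun d => by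
    have h := congrArg (coeff d) hγL
    rw [coeff_map, coeff_map] at h
    rw [mem_qInt]
    refine le_of_eq_of_le (congrArg norm h) ?_
    exact (coeff d L₀.toPowerSeries).2
  set γ' : MvPowerSeries (Fin 2) (qInt p) := fun d => ⟨coeff d γ, hint d⟩ with hγ'
  have hγ'map : map (qInt p).subtype γ' = γ := by
    ext d; rw [coeff_map]; rfl
  have hγ'0 : constantCoeff γ' = 0 := Subtype.ext hγ0
  have hZp : map qToZp γ' = L₀.toPowerSeries := by
    ext d : 1
    have h := congrArg (coeff d) hγL
    rw [coeff_map, coeff_map] at h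
    rw [coeff_map]
    exact Subtype.ext h
  refine ⟨map (qToOL U) γ', map PadicInt.toZMod L₀.toPowerSeries, ?_, ?_, ?_, ?_, ?_⟩
  · rw [constantCoeff_map, hγ'0, map_zero]
  · rw [constantCoeff_map, L₀.zero_constantCoeff, map_zero]
  · rw [← hL₀, FormalGroup.map_toPowerSeries, map_map_apply]
  · rw [← hZp, map_map_apply, map_map_apply, map_map_apply, reduce_comm U hδ1]
    simp only [RingHom.comp_assoc]
  · have hcomp : (OL U).subtype.comp (qToOL U) = (Rat.castHom L).comp (qInt p).subtype := rfl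
    have h := congrArg (map (Rat.castHom L)) hfγ
    rw [ha, map_add, PowerSeries.map_subst (PowerSeries.HasSubst.of_constantCoeff_zero hγ0),
      PowerSeries.map_subst (PowerSeries.HasSubst.X _),
      PowerSeries.map_subst (PowerSeries.HasSubst.X _), map_X, map_X, map_flog] at h
    rw [map_map_apply, hcomp, ← map_map_apply, hγ'map, h]

end

end Vale.Agent.P217.Linear
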