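import Vale.Agent.P217.Sharp.Growth

/-!
P217, module M6: Gauss bounds for series over an untilt and the logarithm of height `m`.
-/

namespace Vale.Agent.P217.Linear

noncomputable section

open MvPowerSeries

variable {p : ℕ} [hp : Fact p.Prime] {L : Type} [Field L] (U : Untilt p L) {σ τ : Type*}

/-- All coefficients have valuation at least `B`. -/
def VB (f : MvPowerSeries σ L) (B : WithTop ℚ) : Prop := ∀ d, B ≤ U.v (coeff d f)

variable {U} {f g : MvPowerSeries σ L} {B B' : WithTop ℚ}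

lemma VB.mono (h : VB U f B) (hB : B' ≤ B) : VB U f B' := fun d => hB.trans (h d)

lemma VB.add (hf : VB U f B) (hg : VB U g B) : VB U (f + g) B := fun d => by
  rw [map_add]; exact AddValuation.map_le_add _ (hf d) (hg d)

lemma VB.neg (hf : VB U f B) : VB U (-f) B := fun d => by
  rw [map_neg, AddValuation.map_neg]; exact hf d

lemma VB.sub (hf : VB U f B) (hg : VB U g B) : VB U (f - g) B := by
  simpa [sub_eq_add_neg] using hf.add hg.neg

lemma VB.mul (hf : VB U f B) (hg : VB U g B') : VB U (f * g) (B + B') := fun d => by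
  classical
  rw [coeff_mul]
  refine AddValuation.map_le_sum _ fun x _ => ?_
  rw [AddValuation.map_mul]
  exact add_le_add (hf _) (hg _)

lemma VB.mul_left (hf : VB U f 0) (hg : VB U g B) : VB U (f * g) B := by
  simpa using hf.mul hg

lemma vb_C {r : L} (h : B ≤ U.v r) : VB U (MvPowerSeries.C r : MvPowerSeries σ L) B := fun d => by
  classical
  rw [coeff_C]
  split_ifs
  · exact h
  · simp

lemma vb_one : VB U (1 : MvPowerSeries σ L) 0 := by
  rw [← map_one (MvPowerSeries.C (σ := σ) (R := L))]; exact vb_C (by simp)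

lemma vb_X (i : σ) : VB U (X i : MvPowerSeries σ L) 0 := fun d => by
  classical
  rw [coeff_X]
  split_ifs <;> simp

lemma VB.pow (hf : VB U f 0) : ∀ k : ℕ, VB U (f ^ k) 0
  | 0 => by rw [pow_zero]; exact vb_one
  | k + 1 => by simpa [pow_succ] using (hf.pow k).mul hf

lemma vb_zero : VB U (0 : MvPowerSeries σ L) B := fun d => by simp

lemma vb_sum {ι : Type*} (s : Finset ι) {F : ι → MvPowerSeries σ L}
    (h : ∀ i ∈ s, VB U (F i) B) : VB U (∑ i ∈ s, F i) B :=
  Finset.sum_induction _ (VB U · B) (fun _ _ ha hb => ha.add hb) vb_zero h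

lemma vb_natCast (k : ℕ) : VB U (k : MvPowerSeries σ L) 0 := by
  rw [← map_natCast (MvPowerSeries.C (σ := σ) (R := L))]
  exact vb_C (Sharp.v_natCast_nonneg U k)

lemma VB.natCast_mul (k : ℕ) (hf : VB U f B) : VB U ((k : MvPowerSeries σ L) * f) B :=
  (vb_natCast k).mul_left hf

lemma VB.p_mul {b : ℚ} (hf : VB U f (b : WithTop ℚ)) :
    VB U ((p : MvPowerSeries σ L) * f) ((1 + b : ℚ) : WithTop ℚ) := fun d => by
  rw [← map_natCast (MvPowerSeries.C (σ := σ) (R := L)), coeff_C_mul, AddValuation.map_mul,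
    Sharp.v_p, WithTop.coe_add]
  exact add_le_add le_rfl (hf d)

/-- Raising to the p-th power contracts. -/
lemma vb_pow_p_sub {e : ℚ} (he : 0 ≤ e) (hg : VB U g 0) (h : VB U (f - g) (e : WithTop ℚ)) :
    VB U (f ^ p - g ^ p) ((min ((p : ℚ) * e) (e + 1) : ℚ) : WithTop ℚ) := by
  obtain ⟨D, hD⟩ : ∃ D, f = D + g := ⟨f - g, (sub_add_cancel f g).symm⟩
  subst hD
  rw [add_sub_cancel_right] at h
  have hD0 : VB U D 0 := h.mono (WithTop.coe_nonneg.mpr he)
  rw [add_pow_prime_eq hp.out, show ∀ a b c : MvPowerSeries σ L, a + b + c - b = a + c by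
    intros; ring]
  refine VB.add ?_ ?_
  · refine VB.mono ?_ (WithTop.coe_le_coe.mpr (min_le_left _ _))
    have : ∀ k : ℕ, VB U (D ^ k) (((k : ℚ) * e : ℚ) : WithTop ℚ) := by
      intro k
      induction k with
      | zero => simpa using vb_one (U := U) (σ := σ)
      | succ k ih =>
        rw [pow_succ, Nat.cast_succ, add_mul, one_mul, WithTop.coe_add]
        exact ih.mul h
    exact this p
  · refine VB.mono ?_ (WithTop.coe_le_coe.mpr (min_le_right _ _))
    rw [mul_assoc, mul_assoc, add_comm e 1]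
    refine VB.p_mul ?_
    rw [mul_comm D]
    refine VB.mul_left (hg.mul_left ?_) h
    exact vb_sum _ fun k _ => by
      rw [mul_comm _ ((p.choose k / p : ℕ) : MvPowerSeries σ L)]
      exact ((hD0.pow _).mul_left (hg.pow _)).natCast_mul _

/-- Repeated p-th powers of congruent series. -/
lemma vb_pow_p_pow_sub {δ : ℚ} (hδ : 0 < δ) (hf : VB U f 0) (hg : VB U g 0)
    (h : VB U (f - g) (δ : WithTop ℚ)) (j : ℕ) :
    ∃ i ≤ j, VB U (f ^ p ^ j - g ^ p ^ j) ((δ * (p : ℚ) ^ i + ((j - i : ℕ) : ℚ) : ℚ) : WithTop ℚ) := by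
  induction j with
  | zero => exact ⟨0, le_rfl, by simpa using h⟩
  | succ j ih =>
    obtain ⟨i, hij, hi⟩ := ih
    have he : 0 ≤ δ * (p : ℚ) ^ i + ((j - i : ℕ) : ℚ) := by positivity
    have h1 := vb_pow_p_sub he (hg.pow _) hi
    rw [← pow_mul, ← pow_mul, ← pow_succ] at h1
    rcases le_total ((p : ℚ) * (δ * (p : ℚ) ^ i + ((j - i : ℕ) : ℚ)))
      (δ * (p : ℚ) ^ i + ((j - i : ℕ) : ℚ) + 1) with hle | hle
    · refine ⟨i + 1, by omega, h1.mono (WithTop.coe_le_coe.mpr ?_)⟩
      rw [min_eq_left hle, show j + 1 - (i + 1) = j - i by omega, mul_add, pow_succ]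
      have hp1 : (1 : ℚ) ≤ p := by exact_mod_cast hp.out.one_lt.le
      nlinarith [Nat.cast_nonneg (α := ℚ) (j - i)]
    · refine ⟨i, by omega, h1.mono (WithTop.coe_le_coe.mpr ?_)⟩
      rw [min_eq_right hle, show j + 1 - i = j - i + 1 by omega]
      push_cast
      linarith

/-- Repeated p-th powers of congruent series gain one per step, up to a constant. -/
theorem exists_vb_pow_sub {δ : ℚ} (hδ : 0 < δ) :
    ∃ K : ℚ, 0 ≤ K ∧ ∀ (σ : Type) (f g : MvPowerSeries σ L), VB U f 0 → VB U g 0 →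
      VB U (f - g) (δ : WithTop ℚ) →
      ∀ j : ℕ, VB U (f ^ p ^ j - g ^ p ^ j) (((j : ℚ) - K : ℚ) : WithTop ℚ) := by
  obtain ⟨N₀, hN⟩ := Sharp.exists_growth (p := p) (le_refl 1) hδ 0
  refine ⟨N₀, Nat.cast_nonneg _, fun σ f g hf hg h j => ?_⟩
  obtain ⟨i, hij, hi⟩ := vb_pow_p_pow_sub hδ hf hg h j
  refine hi.mono (WithTop.coe_le_coe.mpr ?_)
  have : (i : ℚ) ≤ δ * (p : ℚ) ^ i + N₀ := by
    rcases le_total N₀ i with hi' | hi'
    · have := hN i hi'
      rw [zero_add, pow_one] at this
      linarith [Nat.cast_nonneg (α := ℚ) N₀]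
    · have : (i : ℚ) ≤ N₀ := by exact_mod_cast hi'
      have h0 : (0 : ℚ) ≤ δ * (p : ℚ) ^ i := by positivity
      linarith
  rw [Nat.cast_sub hij]
  linarith

section Log

variable (p) in
/-- The logarithm of the Honda law of height `m`. -/
def flog (m : ℕ) (K : Type*) [Field K] : PowerSeries K :=
  PowerSeries.mk fun i =>
    ∑ j ∈ Finset.range (i + 1), if p ^ (j * m) = i then ((p : K) ^ j)⁻¹ else 0

lemma map_flog {m : ℕ} {K K' : Type*} [Field K] [Field K'] (φ : K →+* K') :
    PowerSeries.map φ (flog p m K) = flog p m K' := by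
  ext i
  simp only [flog, PowerSeries.coeff_map, PowerSeries.coeff_mk, map_sum, apply_ite φ, map_inv₀,
    map_pow, map_natCast, map_zero]

lemma constantCoeff_flog {m : ℕ} {K : Type*} [Field K] :
    PowerSeries.constantCoeff (flog p m K) = 0 := by
  rw [← PowerSeries.coeff_zero_eq_constantCoeff_apply, flog, PowerSeries.coeff_mk]
  simp [hp.out.ne_zero]

lemma coeff_one_flog {m : ℕ} (hm : 1 ≤ m) {K : Type*} [Field K] :
    PowerSeries.coeff 1 (flog p m K) = 1 := by
  have h : p ^ m ≠ 1 := (Nat.one_lt_pow (by omega) hp.out.one_lt).ne'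
  rw [flog, PowerSeries.coeff_mk, Finset.sum_range_succ, Finset.sum_range_one, one_mul, if_neg h]
  simp

/-- The coefficients of the logarithm of a series are finite sums. -/
theorem coeff_log {m : ℕ} (hm : 1 ≤ m) {K : Type*} [Field K] {A : MvPowerSeries σ K}
    (hA : constantCoeff A = 0) {M : ℕ} {d : σ →₀ ℕ} (hd : d.degree < p ^ ((M + 1) * m)) :
    coeff d (PowerSeries.subst A (flog p m K)) =
      ∑ j ∈ Finset.range (M + 1), ((p : K) ^ j)⁻¹ * coeff d (A ^ p ^ (j * m)) := by
  classical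
  have hinj : Function.Injective fun j : ℕ => p ^ (j * m) := fun a b h =>
    Nat.eq_of_mul_eq_mul_right (by omega) (Nat.pow_right_injective hp.out.two_le h)
  have hco : ∀ j, PowerSeries.coeff (p ^ (j * m)) (flog p m K) = ((p : K) ^ j)⁻¹ := by
    intro j
    rw [flog, PowerSeries.coeff_mk, Finset.sum_eq_single j, if_pos rfl]
    · exact fun b _ hb => if_neg fun h => hb (hinj h)
    · intro h
      refine absurd (Finset.mem_range.2 ?_) h
      have h1 : j ≤ j * m := Nat.le_mul_of_pos_right j (by omega)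
      have h2 := Nat.lt_pow_self (n := j * m) hp.out.one_lt
      omega
  rw [PowerSeries.coeff_subst (PowerSeries.HasSubst.of_constantCoeff_zero hA),
    finsum_eq_sum_of_support_subset (s := (Finset.range (M + 1)).image fun j => p ^ (j * m)),
    Finset.sum_image fun a _ b _ h => hinj h]
  · exact Finset.sum_congr rfl fun j _ => by rw [hco, smul_eq_mul]
  · intro i hi
    rw [Function.mem_support] at hi
    have h1 : PowerSeries.coeff i (flog p m K) ≠ 0 := fun h => hi (by rw [h, zero_smul])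
    rw [flog, PowerSeries.coeff_mk] at h1
    obtain ⟨j, -, hj⟩ := Finset.exists_ne_zero_of_sum_ne_zero h1
    have hji : p ^ (j * m) = i := by by_contra h; exact hj (if_neg h)
    have hid : i ≤ d.degree := by
      by_contra hlt
      refine hi ?_
      rw [coeff_of_lt_order (lt_of_lt_of_le ?_ (le_order_pow_of_constantCoeff_eq_zero i hA)),
        smul_zero]
      exact_mod_cast not_le.1 hlt
    simp only [Finset.coe_image, Set.mem_image, Finset.mem_coe, Finset.mem_range]
    refine ⟨j, ?_, hji⟩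
    have h2 := lt_of_le_of_lt hid hd
    rw [← hji, Nat.pow_lt_pow_iff_right hp.out.one_lt] at h2
    exact Nat.lt_of_mul_lt_mul_right h2

lemma coeff_pow_eq_zero {K : Type*} [CommRing K] {A : MvPowerSeries σ K}
    (hA : constantCoeff A = 0) {k : ℕ} {d : σ →₀ ℕ} (hd : d.degree < k) : coeff d (A ^ k) = 0 :=
  coeff_of_lt_order (lt_of_lt_of_le (by exact_mod_cast hd)
    (le_order_pow_of_constantCoeff_eq_zero k hA))

lemma deg_lt_pow {m : ℕ} (hm : 1 ≤ m) (k : ℕ) : k < p ^ ((k + 1) * m) :=
  (Nat.lt_succ_self k).trans_le ((Nat.le_mul_of_pos_right _ (by omega)).trans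
    (Nat.lt_pow_self hp.out.one_lt).le)

/-- The functional equation of the logarithm. -/
theorem log_rec {m : ℕ} (hm : 1 ≤ m) {K : Type*} [Field K] (hpK : (p : K) ≠ 0)
    {A : MvPowerSeries σ K} (hA : constantCoeff A = 0) :
    (p : MvPowerSeries σ K) * PowerSeries.subst A (flog p m K) -
      PowerSeries.subst (A ^ p ^ m) (flog p m K) = (p : MvPowerSeries σ K) * A := by
  have hA' : constantCoeff (A ^ p ^ m) = 0 := by
    rw [map_pow, hA, zero_pow (pow_ne_zero _ hp.out.ne_zero)]
  ext d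
  have hM := deg_lt_pow (p := p) hm d.degree
  have hM1 : d.degree < p ^ ((d.degree + 1 + 1) * m) :=
    hM.trans_le (Nat.pow_le_pow_right hp.out.pos (by nlinarith))
  rw [map_sub, ← map_natCast (MvPowerSeries.C (σ := σ) (R := K)), coeff_C_mul, coeff_C_mul,
    coeff_log hm hA hM1, coeff_log hm hA' hM, Finset.sum_range_succ', mul_add, Finset.mul_sum]
  simp only [pow_zero, inv_one, one_mul, zero_mul, pow_one]
  rw [add_sub_right_comm, ← Finset.sum_sub_distrib, Finset.sum_eq_zero, zero_add]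
  intro j _
  rw [← pow_mul, ← pow_add, show m + j * m = (j + 1) * m by ring, pow_succ, mul_inv, ← mul_assoc,
    mul_comm ((p : K) ^ j)⁻¹, ← mul_assoc, mul_inv_cancel₀ hpK, one_mul, sub_self]

/-- Substitution commutes with the logarithm. -/
lemma subst_log {m : ℕ} {K : Type*} [Field K] {A : MvPowerSeries σ K} (hA : constantCoeff A = 0)
    {a : σ → MvPowerSeries τ K} (ha : HasSubst a) :
    subst a (PowerSeries.subst A (flog p m K)) = PowerSeries.subst (subst a A) (flog p m K) :=
  subst_comp_subst_apply (PowerSeries.HasSubst.of_constantCoeff_zero hA).const ha _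

/-- Congruent series have congruent logarithms. -/
theorem exists_vb_log_sub {δ : ℚ} (hδ : 0 < δ) :
    ∃ K : ℚ, 0 ≤ K ∧ ∀ (m : ℕ), 1 ≤ m → ∀ (σ : Type) (f g : MvPowerSeries σ L),
      constantCoeff f = 0 → constantCoeff g = 0 → VB U f 0 → VB U g 0 →
      VB U (f - g) (δ : WithTop ℚ) →
      VB U (PowerSeries.subst f (flog p m L) - PowerSeries.subst g (flog p m L))
        ((-K : ℚ) : WithTop ℚ) := by
  obtain ⟨K, hK0, hK⟩ := exists_vb_pow_sub (U := U) hδ
  refine ⟨K, hK0, fun m hm σ f g hf0 hg0 hf hg h d => ?_⟩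
  have hM := deg_lt_pow (p := p) hm d.degree
  rw [map_sub, coeff_log hm hf0 hM, coeff_log hm hg0 hM, ← Finset.sum_sub_distrib]
  refine AddValuation.map_le_sum _ fun j _ => ?_
  have hj := hK σ f g hf hg h (j * m) d
  rw [map_sub] at hj
  rw [← mul_sub, AddValuation.map_mul, ← zpow_natCast, ← zpow_neg, Sharp.v_p_zpow]
  refine le_trans ?_ (add_le_add le_rfl hj)
  rw [← WithTop.coe_add, WithTop.coe_le_coe]
  have : (j : ℚ) ≤ ((j * m : ℕ) : ℚ) := by exact_mod_cast Nat.le_mul_of_pos_right j (by omega)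
  push_cast at this ⊢
  linarith

end Log

end

end Vale.Agent.P217.Linear
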